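import Vale.Agent.P235.K5.Wagner

/-!
# P235-K5, Wagner's theorem, row (W5): type 2 against type 3 (helper854)
-/

namespace Vale.Agent.P235.K5.H854

open SimpleGraph Vale.Agent.P235.H134 Vale.Agent.P235.H56 Vale.Agent.P235.K5.W

variable {V : Type} {G : SimpleGraph V}

theorem ad_symm {X Y : Set V} (h : Ad G X Y) : Ad G Y X := by
  obtain ⟨x, hx, y, hy, h⟩ := h
  exact ⟨y, hy, x, hx, h.symm⟩

theorem ad_mono {X Y X' Y' : Set V} (h : Ad G X Y) (hX : X ⊆ X') (hY : Y ⊆ Y') :
    Ad G X' Y' := by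
  obtain ⟨x, hx, y, hy, h⟩ := h
  exact ⟨x, hX hx, y, hY hy, h⟩

theorem cn_union {X Y : Set V} (hX : Cn G X) (hY : Cn G Y) (h : Ad G X Y) : Cn G (X ∪ Y) := by
  obtain ⟨x, hx, y, hy, h⟩ := h
  exact connected_induce_union hX.preconnected hY.preconnected hx hy h

theorem ad_union {X Y Z : Set V} (h : Ad G X (Y ∪ Z)) : Ad G X Y ∨ Ad G X Z := by
  obtain ⟨x, hx, y, hy | hy, h⟩ := h
  · exact Or.inl ⟨x, hx, y, hy, h⟩
  · exact Or.inr ⟨x, hx, y, hy, h⟩

/-- the main step, `c` moves to the `A` side, `b` stays -/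
theorem step (hL : LocalStmt) [Finite V] {A B : Fin 3 → Set V} (hM : Mod G A B) {X Y : Set V}
    (hS : Split G (A 0) X Y) (h1 : Ad G X (B 0)) (h2 : Ad G X (B 1)) (h3 : Ad G Y (B 1))
    (h4 : Ad G Y (B 2)) {j : Fin 3} {U : Fin 3 → Set V} (hT : Tri G (B j) U)
    (hU : ∀ i, Ad G (U i) (A i)) {b c : Fin 3} (hb : b ≠ 0) (hc : c ≠ 0) (hbc : b ≠ c)
    (hX : Ad G X (B j) → Ad G X (U 0 ∪ U b)) (hY : Ad G Y (B j) → Ad G Y (U 0 ∪ U b)) :
    IsMinor K5 G ∨ IsMinor V8 G := by
  classical
  have hsub : ∀ i, U i ⊆ B j := fun i x hx => (hT.un x).2 ⟨i, hx⟩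
  have hcov : ∀ i : Fin 3, i = 0 ∨ i = b ∨ i = c := by
    intro i
    clear hX hY
    revert hb hc hbc
    revert i b c
    decide
  let A' : Fin 3 → Set V := Function.update A c (A c ∪ U c)
  let B' : Fin 3 → Set V := Function.update B j (U 0 ∪ U b)
  have hA'c : A' c = A c ∪ U c := Function.update_self ..
  have hA'n : ∀ i, i ≠ c → A' i = A i := fun i hi => Function.update_of_ne hi ..
  have hB'j : B' j = U 0 ∪ U b := Function.update_self ..
  have hB'n : ∀ k, k ≠ j → B' k = B k := fun k hk => Function.update_of_ne hk ..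
  have hAA : ∀ i, A i ⊆ A' i := by
    intro i
    by_cases hi : i = c
    · subst hi; rw [hA'c]; exact Set.subset_union_left
    · rw [hA'n i hi]
  have hBB : ∀ k, B' k ⊆ B k := by
    intro k
    by_cases hk : k = j
    · subst hk; rw [hB'j]; exact Set.union_subset (hsub 0) (hsub b)
    · rw [hB'n k hk]
  have hM' : Mod G A' B' := by
    refine ⟨?_, ?_, ?_, ?_, ?_, ?_, ?_⟩
    · intro i
      by_cases hi : i = c
      · subst hi; rw [hA'c]
        exact cn_union (hM.connA i) (hT.cn i) (ad_symm (hU i))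
      · rw [hA'n i hi]; exact hM.connA i
    · intro k
      by_cases hk : k = j
      · subst hk; rw [hB'j]
        exact cn_union (hT.cn 0) (hT.cn b) (hT.ad 0 b (Ne.symm hb))
      · rw [hB'n k hk]; exact hM.connB k
    · have key : ∀ i, i ≠ c → Disjoint (A i) (A c ∪ U c) := by
        intro i hi
        rw [Set.disjoint_union_right]
        exact ⟨hM.dA i c hi, (hM.dAB i j).mono_right (hsub c)⟩
      intro i k hik
      by_cases hi : i = c
      · subst hi
        rw [hA'c, hA'n k (Ne.symm hik)]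
        exact (key k (Ne.symm hik)).symm
      · by_cases hk : k = c
        · subst hk
          rw [hA'c, hA'n i hi]
          exact key i hi
        · rw [hA'n i hi, hA'n k hk]; exact hM.dA i k hik
    · intro i k hik
      exact (hM.dB i k hik).mono (hBB i) (hBB k)
    · intro i k
      by_cases hi : i = c
      · subst hi
        rw [hA'c, Set.disjoint_union_left]
        refine ⟨(hM.dAB i k).mono_right (hBB k), ?_⟩
        by_cases hk : k = j
        · subst hk; rw [hB'j, Set.disjoint_union_right]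
          exact ⟨hT.dis i 0 hc, hT.dis i b (Ne.symm hbc)⟩
        · rw [hB'n k hk]
          exact (hM.dB j k (Ne.symm hk)).mono_left (hsub i)
      · rw [hA'n i hi]; exact (hM.dAB i k).mono_right (hBB k)
    · intro x
      rcases hM.cover x with ⟨i, hi⟩ | ⟨k, hk⟩
      · exact Or.inl ⟨i, hAA i hi⟩
      · by_cases hkj : k = j
        · subst hkj
          obtain ⟨i, hi⟩ := (hT.un x).1 hk
          rcases hcov i with rfl | rfl | rfl
          · exact Or.inr ⟨k, by rw [hB'j]; exact Or.inl hi⟩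
          · exact Or.inr ⟨k, by rw [hB'j]; exact Or.inr hi⟩
          · exact Or.inl ⟨i, by rw [hA'c]; exact Or.inr hi⟩
        · exact Or.inr ⟨k, by rw [hB'n k hkj]; exact hk⟩
    · intro i k
      by_cases hk : k = j
      · subst hk
        rw [hB'j]
        rcases hcov i with rfl | rfl | rfl
        · exact ad_mono (ad_symm (hU _)) (hAA _) Set.subset_union_left
        · exact ad_mono (ad_symm (hU _)) (hAA _) Set.subset_union_right
        · rw [hA'c]
          exact ad_mono (hT.ad i 0 hc) Set.subset_union_right Set.subset_union_left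
      · rw [hB'n k hk]
        exact ad_mono (hM.adj i k) (hAA i) (le_refl _)
  have hX' : ∀ k, Ad G X (B k) → Ad G X (B' k) := by
    intro k h
    by_cases hk : k = j
    · subst hk; rw [hB'j]; exact hX h
    · rw [hB'n k hk]; exact h
  have hY' : ∀ k, Ad G Y (B k) → Ad G Y (B' k) := by
    intro k h
    by_cases hk : k = j
    · subst hk; rw [hB'j]; exact hY h
    · rw [hB'n k hk]; exact h
  have hS' : Split G (A' 0) X Y := by rw [hA'n 0 (Ne.symm hc)]; exact hS
  have hW : Split G (B' j) (U 0) (U b) :=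
    ⟨hB'j.symm, hT.dis 0 b (Ne.symm hb), hT.cn 0, hT.cn b, hT.ad 0 b (Ne.symm hb)⟩
  exact hL V G A' B' hM' X Y hS' (hX' 0 h1) (hX' 1 h2) (hY' 1 h3) (hY' 2 h4) j (U 0) (U b) hW
    0 c b c (Ne.symm hc) (ad_mono (hU 0) (le_refl _) (hAA 0))
    (by rw [hA'c]; exact ad_mono (hT.ad 0 c (Ne.symm hc)) (le_refl _) Set.subset_union_right) hbc
    (ad_mono (hU b) (le_refl _) (hAA b))
    (by rw [hA'c]; exact ad_mono (hT.ad b c hbc) (le_refl _) Set.subset_union_right)

/-- a set adjacent to `T` is adjacent to one of the three parts -/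
theorem ad_tri {Z T : Set V} {U : Fin 3 → Set V} (hT : Tri G T U) (h : Ad G Z T) :
    ∃ i, Ad G Z (U i) := by
  obtain ⟨z, hz, t, ht, h⟩ := h
  obtain ⟨i, hi⟩ := (hT.un t).1 ht
  exact ⟨i, z, hz, t, hi, h⟩

/-- **(W5)** from **(W4)** -/
theorem localTri (hL : LocalStmt) : LocalTriStmt := by
  intro V _ G A B hM X Y hS h1 h2 h3 h4 j U hT hU
  have h0 : Ad G (U 0) (X ∪ Y) := by rw [hS.un]; exact hU 0
  -- for every set `Z` adjacent to `B j` there is an index `b ≠ 0` such that `Z ~ U 0 ∪ U b`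
  have key : ∀ Z : Set V, ∃ b : Fin 3, b ≠ 0 ∧ (Ad G Z (B j) → Ad G Z (U 0 ∪ U b)) := by
    intro Z
    by_cases hZ : Ad G Z (B j)
    · obtain ⟨i, hi⟩ := ad_tri hT hZ
      by_cases hi0 : i = 0
      · subst hi0
        exact ⟨1, by decide, fun _ => ad_mono hi (le_refl _) Set.subset_union_left⟩
      · exact ⟨i, hi0, fun _ => ad_mono hi (le_refl _) Set.subset_union_right⟩
    · exact ⟨1, by decide, fun h => absurd h hZ⟩
  have third : ∀ b : Fin 3, b ≠ 0 → ∃ c : Fin 3, c ≠ 0 ∧ b ≠ c := by decide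
  rcases ad_union h0 with hx | hy
  · obtain ⟨b, hb, hbY⟩ := key Y
    obtain ⟨c, hc, hbc⟩ := third b hb
    exact step hL hM hS h1 h2 h3 h4 hT hU hb hc hbc
      (fun _ => ad_mono (ad_symm hx) (le_refl _) Set.subset_union_left) hbY
  · obtain ⟨b, hb, hbX⟩ := key X
    obtain ⟨c, hc, hbc⟩ := third b hb
    exact step hL hM hS h1 h2 h3 h4 hT hU hb hc hbc hbX
      (fun _ => ad_mono (ad_symm hy) (le_refl _) Set.subset_union_left)

end Vale.Agent.P235.K5.H854
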